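import Crest.Agent.KS.DefsI

/-!
Row 314, part E (route F): the dynamic embedding, fractional form. One scale, unit length
`c = lam τ^l / 16`: `d x y = dist x y / c`. Labels `H ⊕ X` (heavy, light).
-/

set_option autoImplicit false

namespace Crest.Agent.KS.F

open Finset
open scoped Classical

/-- pseudo-metric -/
structure IsD {X : Type} (d : X → X → ℝ) : Prop where
  refl : ∀ x, d x x = 0
  symm : ∀ x y, d x y = d y x
  tri : ∀ x y z, d x z ≤ d x y + d y z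

/-- state: token weights, heavy centres and offsets -/
structure St (X H : Type) where
  nu : X → ℝ
  z : H → X → ℝ
  be : H → ℝ

/-- probability of capture -/
def al (u : ℝ) : ℝ := 1 - max (1 - u) 0 ^ 2

/-- `ℓ¹` distance -/
def l1 {L : Type} [Fintype L] (p q : L → ℝ) : ℝ := ∑ a, |p a - q a|

section

variable {X H : Type} [Fintype X] [Fintype H] (d : X → X → ℝ)

/-- mass of a closed ball -/
noncomputable def bm (m : X → ℝ) (x : X) (R : ℝ) : ℝ := ∑ c, if d x c ≤ R then m c else 0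
/-- distance to a heavy centre -/
noncomputable def DH (s : St X H) (h : H) (x : X) : ℝ := dist (s.z h) (d x) + s.be h
/-- depth in a heavy ball -/
noncomputable def uu (s : St X H) (h : H) (x : X) : ℝ := max (5 - DH d s h x) 0
/-- total depth -/
noncomputable def UU (s : St X H) (x : X) : ℝ := ∑ h, uu d s h x
/-- square root of the probability of not being captured -/
noncomputable def gg (s : St X H) (x : X) : ℝ := max (1 - UU d s x) 0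
/-- light potential -/
noncomputable def phi (nu : X → ℝ) (x : X) : ℝ :=
  ∫ u in (0 : ℝ)..4, u / 8 * -Real.log (bm d nu x (18 + u))
/-- unweighted integral of the logarithm -/
noncomputable def LI (nu : X → ℝ) (x : X) : ℝ :=
  ∫ u in (0 : ℝ)..4, -Real.log (bm d nu x (18 + u))
/-- law of the light label -/
noncomputable def piL (nu : X → ℝ) (x c : X) : ℝ :=
  ∫ R in (21 : ℝ)..22, (if d x c ≤ R then nu c else 0) / bm d nu x R
/-- law of the label -/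
noncomputable def pp (s : St X H) (x : X) : H ⊕ X → ℝ :=
  Sum.elim (fun h => al (uu d s h x)) (fun c => gg d s x ^ 2 * piL d s.nu x c)
/-- potential of a point -/
noncomputable def ff (s : St X H) (x : X) : ℝ :=
  22 * (gg d s x ^ 2 * phi d s.nu x) + 3 * (5 - UU d s x) ^ 2
/-- update of the weights -/
noncomputable def nup (nu : X → ℝ) (y : X) (η : ℝ) : X → ℝ := fun c =>
  (if d y c ≤ 46 then (1 - η) * nu c else nu c) + if c = y then η else 0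
/-- rate of gain -/
noncomputable def II (nu : X → ℝ) (y : X) (η : ℝ) (x : X) : ℝ :=
  ∫ u in (0 : ℝ)..4, if d y x ≤ 18 + u then u / 8 / (bm d nu x (18 + u) + η) else 0
/-- amortised cost of the update of the weights -/
noncomputable def am (nu : X → ℝ) (y : X) (η : ℝ) (x : X) : ℝ :=
  if d y x ≤ 70 then 48 * η - 11 * (η * II d nu y η x) else 0
/-- admissible weights -/
structure NuOk (nu : X → ℝ) : Prop where
  pos : ∀ c, 0 < nu c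
  pack : ∀ x, bm d nu x 23 ≤ 1
/-- admissible heavy labels -/
structure HOk (s : St X H) : Prop where
  be : ∀ h, 0 ≤ s.be h
  sep : ∀ h h' x, h ≠ h' → 10 ≤ DH d s h x + DH d s h' x
/-- mass of the ball around the request (the mover is counted at `y`) -/
noncomputable def NN (m : X → ℝ) (y : X) (r : ℝ) : ℝ := 1 + bm d m y r
/-- expected length of the move -/
noncomputable def DD (q : X → ℝ) (y : X) : ℝ := ∑ x, q x * d y x
/-- probability of a long move -/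
noncomputable def PL (q : X → ℝ) (y : X) : ℝ := ∑ x, if 1 < d y x then q x else 0
/-- first moment -/
noncomputable def L2 (m : X → ℝ) (y : X) : ℝ :=
  (∑ x, if d y x ≤ 70 then m x * d y x else 0) / NN d m y 70
/-- the logarithmic budget -/
def LamOk (m : X → ℝ) (y : X) (Λ : ℝ) : Prop :=
  0 ≤ Λ ∧ ∀ v, 0 < v → v ≤ 1 → √v * (Real.log (NN d m y 70) - Real.log (NN d m y v)) ≤ Λ
/-- amortised cost of a step: non-movers `m`, law `q` of the source of the mover -/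
noncomputable def cost (s s' : St X H) (y : X) (m q : X → ℝ) : ℝ :=
  ∑ x, m x * (l1 (pp d s x) (pp d s' x) + ff d s' x - ff d s x) +
    ∑ x, q x * (l1 (pp d s x) (pp d s' y) + ff d s' y - ff d s x)
/-- what a step guarantees -/
structure Out (C : ℝ) (s s' : St X H) (h₀ : H) (y : X) (m q : X → ℝ) : Prop where
  nu : NuOk d s'.nu
  hv : HOk d s'
  fresh : ∀ h, h ≠ h₀ → 10 ≤ s.be h → 10 ≤ s'.be h
  drift : ∀ h x x', 0 < uu d s h x' → 0 < uu d s' h x →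
    dist (s.z h) (s'.z h) ≤ 4 * DD d q y / NN d m y (d y x)
  cost : ∀ Λ, LamOk d m y Λ → cost d s s' y m q ≤ C * (DD d q y * (Λ + L2 d m y) + PL d q y)
/-- the data of a step -/
structure In (s : St X H) (h₀ : H) (m q : X → ℝ) : Prop where
  isD : IsD d
  nu : NuOk d s.nu
  hv : HOk d s
  fresh : 10 ≤ s.be h₀
  m0 : ∀ x, 0 ≤ m x
  q0 : ∀ x, 0 ≤ q x
  q1 : ∑ x, q x = 1

end

/-- **BAS**. `dist (d x) (d y) = d x y` (sup metric), so `DH` is 1-Lipschitz and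
`d x x' ≤ DH h x + DH h x'`. By `sep` at most one `uu h x` is nonzero. `al` is 2-Lipschitz on
`[0,∞)`, `al 0 = 0`, `∑ al (uu h x) = 1 - gg²`. `l1` splits over `H ⊕ X`:
`|a p - a' p'| ≤ |a - a'| + min a a' |p - p'|` in `ℓ¹` for probability vectors `p, p'`. -/
def BasStmt : Prop :=
  ∀ (X H : Type) [Fintype X] [Fintype H] (d : X → X → ℝ), IsD d →
    (∀ x y, 0 ≤ d x y ∧ dist (d x) (d y) = d x y) ∧
    (∀ (m : X → ℝ), (∀ x, 0 ≤ m x) → ∀ x y R R', R + d y x ≤ R' → bm d m x R ≤ bm d m y R') ∧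
    (∀ (s : St X H), HOk d s → ∀ x,
      (∀ h x', DH d s h x ≤ DH d s h x' + d x x' ∧ d x x' ≤ DH d s h x + DH d s h x') ∧
      (∀ h, 0 < uu d s h x → UU d s x = uu d s h x ∧ ∀ h', h' ≠ h → uu d s h' x = 0) ∧
      (0 ≤ UU d s x ∧ UU d s x ≤ 5 ∧ 0 ≤ gg d s x ∧ gg d s x ≤ 1) ∧
      (∀ h, 5 - UU d s x ≤ DH d s h x) ∧
      (∀ r, r ≤ 5 → (∀ h, r ≤ DH d s h x) → r ≤ 5 - UU d s x) ∧
      (∀ x', ∑ h, |uu d s h x - uu d s h x'| ≤ 2 * d x x') ∧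
      ∑ h, al (uu d s h x) = 1 - gg d s x ^ 2) ∧
    ∀ (s s' : St X H), HOk d s → HOk d s' → ∀ x x',
      (∀ δ, 0 ≤ δ → (∀ h, |uu d s h x - uu d s' h x'| ≤ δ) →
        ∑ h, |uu d s h x - uu d s' h x'| ≤ 2 * δ) ∧
      |UU d s x - UU d s' x'| ≤ ∑ h, |uu d s h x - uu d s' h x'| ∧
      |gg d s x - gg d s' x'| ≤ ∑ h, |uu d s h x - uu d s' h x'| ∧
      ((∀ c, 0 ≤ piL d s.nu x c) → ∑ c, piL d s.nu x c = 1 →
        (∀ c, 0 ≤ piL d s'.nu x' c) → ∑ c, piL d s'.nu x' c = 1 →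
        l1 (pp d s x) (pp d s' x') ≤ 2 ∧
        l1 (pp d s x) (pp d s' x') ≤ min 4 (4 * ∑ h, |uu d s h x - uu d s' h x'|) +
          min (gg d s x ^ 2) (gg d s' x' ^ 2) * l1 (piL d s.nu x) (piL d s'.nu x') ∧
        ∀ h, 1 ≤ uu d s h x → 1 ≤ uu d s' h x' → l1 (pp d s x) (pp d s' x') = 0)

/-- **INT**. Integrability: `bm d nu x` is monotone (so measurable) and `≥ nu x > 0` on `[0,∞)`;
bounded measurable functions are interval integrable. Shift: substitute `v = u + δ`, drop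
`∫_4^{4+δ} ≥ 0`, split `∫_0^4 = ∫_0^δ + ∫_δ^4`. Normalisation:
`‖a/|a| - b/|b|‖ ≤ 2 ‖a - b‖/|a|`. -/
def IntStmt : Prop :=
  (∀ (f : ℝ → ℝ) (a b C : ℝ), Measurable f → a ≤ b → (∀ u, a ≤ u → u ≤ b → |f u| ≤ C) →
    IntervalIntegrable f MeasureTheory.volume a b) ∧
  (∀ (F : ℝ → ℝ) (δ : ℝ), 0 ≤ δ → δ ≤ 1 → AntitoneOn F (Set.Icc 0 5) →
    (∀ u, 0 ≤ u → u ≤ 5 → 0 ≤ F u) →
    (∫ u in (0 : ℝ)..4, u / 8 * F u) - (∫ u in (0 : ℝ)..4, u / 8 * F (u + δ)) ≤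
      δ / 8 * ∫ u in (0 : ℝ)..4, F u) ∧
  (∀ (L : Type) [Fintype L] (a b : L → ℝ), (∀ i, 0 ≤ a i) → (∀ i, 0 ≤ b i) → 0 < ∑ i, a i →
    0 < ∑ i, b i → ∑ i, |a i / ∑ j, a j - b i / ∑ j, b j| ≤ 2 * (∑ i, |a i - b i|) / ∑ j, a j) ∧
  ∀ (X : Type) [Fintype X] (d : X → X → ℝ) (nu : X → ℝ), IsD d → (∀ c, 0 < nu c) → ∀ x,
    Monotone (bm d nu x) ∧ (∀ R, 0 ≤ R → nu x ≤ bm d nu x R) ∧ (∀ R, bm d nu x R ≤ ∑ c, nu c) ∧
    IntervalIntegrable (fun u => -Real.log (bm d nu x (18 + u))) MeasureTheory.volume 0 4 ∧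
    IntervalIntegrable (fun u => u / 8 * -Real.log (bm d nu x (18 + u))) MeasureTheory.volume 0 4 ∧
    (∀ c, IntervalIntegrable (fun R => (if d x c ≤ R then nu c else 0) / bm d nu x R)
      MeasureTheory.volume 21 22) ∧
    (∀ (y : X) (η a b : ℝ), 0 ≤ η → 0 ≤ a → a ≤ b → b ≤ 4 → IntervalIntegrable
      (fun u => if d y x ≤ 18 + u then u / 8 / (bm d nu x (18 + u) + η) else 0)
      MeasureTheory.volume a b) ∧
    (∀ c, 0 ≤ piL d nu x c ∧ (piL d nu x c ≠ 0 → d x c ≤ 22)) ∧ ∑ c, piL d nu x c = 1 ∧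
    ((∀ x, bm d nu x 23 ≤ 1) → 0 ≤ phi d nu x ∧ phi d nu x ≤ LI d nu x / 2 ∧ 0 ≤ LI d nu x) ∧
    ∀ (y : X) (η : ℝ), 0 ≤ η → 0 ≤ II d nu y η x ∧ η * II d nu y η x ≤ 1 ∧
      (22 < d y x → II d nu y η x = 0)

/-- **AM** (uses BAS, INT). `W = bm nu x R`, `W' = bm nu' x R`, `W⁺ = W + η 1[d y x ≤ R]`:
`W' ≥ (1-η) W⁺ ≥ W⁺/2`, `log W - log W' ≤ 2η - η 1[..]/W⁺`, `‖nu' - nu‖ on the ball ≤ η W + η 1[..]`, so
the `ℓ¹` distance at radius `R` is `≤ 4η + 4η 1[..]/W⁺`; `1 ≤ (8/3)(u/8)` for `u ≥ 3`. If `d y x > 70`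
nothing changes on `B(x,22)`. Packing: if `d y x ≤ 23` the ball `B(x,23)` lies in `B(y,46)`. -/
def AmStmt : Prop :=
  ∀ (X : Type) [Fintype X] (d : X → X → ℝ) (nu : X → ℝ) (y : X) (η : ℝ), IsD d → NuOk d nu →
    0 ≤ η → η ≤ 1 / 10 → NuOk d (nup d nu y η) ∧
    (∀ x R, (1 - η) * (bm d nu x R + if d y x ≤ R then η else 0) ≤ bm d (nup d nu y η) x R) ∧
    ∀ x, 22 * (phi d (nup d nu y η) x - phi d nu x) + l1 (piL d nu x) (piL d (nup d nu y η) x) ≤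
      am d nu y η x

/-- **ETA** (uses INT). `S η = ∑ μ II η`, `M = bm μ y 70`. `S (1/10) ≤ 10 M`; `S η ≥ S (η/2)/2`;
`S η ≥ S 0 · ν₀/(ν₀+η)` (`ν₀ = min nu`). If `S 0 ≤ 10 M` take `η = 0`, else the last `η = 2^{-i}/10` with
`S η ≤ 10 M` (then `S η ≥ 5 M`). -/
def EtaStmt : Prop :=
  ∀ (X : Type) [Fintype X] (d : X → X → ℝ) (nu μ : X → ℝ) (y : X), IsD d → (∀ c, 0 < nu c) →
    (∀ x, 0 ≤ μ x) → ∃ η : ℝ, 0 ≤ η ∧ η ≤ 1 / 10 ∧
      ∑ x, μ x * II d nu y η x ≤ 10 * bm d μ y 70 ∧ ∑ x, μ x * am d nu y η x ≤ 0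

/-- **EM** (uses BAS, INT, AM). (1) `-log W' ≤ log 2 - log W⁺`, `g (-log v) ≤ g²/v + 1` (`ELem.ent`).
(2) shift lemma for `F u = η/(bm nu y (18+u) + η) ∈ [0,1]`. (3) keep `∫_0^{u/2}` only. -/
def EmStmt : Prop :=
  ∀ (X : Type) [Fintype X] (d : X → X → ℝ) (nu : X → ℝ) (y : X) (η : ℝ), IsD d → NuOk d nu →
    0 ≤ η → η ≤ 1 / 10 → ∀ x,
    (∀ g, 0 ≤ g → g ≤ 1 → d y x ≤ 18 → g * phi d (nup d nu y η) x ≤ 2 + g ^ 2 * II d nu y η x) ∧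
    (d y x ≤ 1 → η * II d nu y η y - η * II d nu y η x ≤ d y x / 2) ∧
    ∀ u, 0 < u → u ≤ 4 → d y x ≤ u / 2 →
      u ^ 2 / 128 ≤ II d nu y η x * bm d (nup d nu y η) y (18 + u)

/-- **MV** (uses BAS, INT). `δ = d y x`, `L R = -log (bm nu y R)`, antitone on `[0,∞)`, `≥ 0` up to `23`.
At radius `R` compare both laws with the law on `B(y,R+δ)`: `ℓ¹ ≤ 4 (1 - W(R-δ)/W(R+δ)) ≤
4 (L(R-δ) - L(R+δ))`, whose integral over `[21,22]` is `≤ 4 · 2δ L 20 ≤ 4 δ LI`. Second part: shift. -/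
def MvStmt : Prop :=
  ∀ (X : Type) [Fintype X] (d : X → X → ℝ) (nu : X → ℝ) (x y : X), IsD d → NuOk d nu → d y x ≤ 1 →
    l1 (piL d nu x) (piL d nu y) ≤ 4 * d y x * LI d nu y ∧
      phi d nu y - phi d nu x ≤ d y x / 8 * LI d nu y

/-- **LB** (uses INT). For `0 < u ≤ 4`, `w = g u`: `-log W ≤ log 5120 + 2 log (1/w) + 4Λ/√w ≤ (22 + 4Λ)/√w`,
`∫_0^4 u^{-1/2} = 4` (`integral_rpow`, `integral_mono_on_of_le_Ioo`). -/
def LbStmt : Prop :=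
  ∀ (X : Type) [Fintype X] (d : X → X → ℝ) (nu m : X → ℝ) (y : X) (g Λ : ℝ), IsD d → NuOk d nu →
    (∀ x, 0 ≤ m x) → 0 ≤ g → g ≤ 1 → LamOk d m y Λ →
    (∀ u, 0 < u → u ≤ 4 →
      g ^ 2 * u ^ 2 * NN d m y (g * u / 16) ≤ 5120 * NN d m y 70 * bm d nu y (18 + u)) →
    g * LI d nu y ≤ 88 + 16 * Λ

/-- **HS** (uses BAS). Small move of the heavy label `h`, `a = DH h y < 3`, `δ = θ a`:
`z' h = z h + θ (d y - z h)`, `be' h = (1-θ) be h`; for `h' ≠ h`, `be' h' = be h' + δ` if `DH h' y ≤ 13`.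
`DH' h x ≤ (1-θ) DH h x + θ d y x`, `|DH' h x - DH h x| ≤ δ`, `DH h x ≥ |a - d y x|`. -/
def HsStmt : Prop :=
  ∀ (X H : Type) [Fintype X] [Fintype H] (d : X → X → ℝ) (s : St X H) (h : H) (y : X) (θ : ℝ),
    IsD d → HOk d s → DH d s h y < 3 → 0 ≤ θ → θ ≤ 1 → ∀ nu' : X → ℝ,
    ∃ s' : St X H, s'.nu = nu' ∧ HOk d s' ∧
      (∀ h', h' ≠ h → s'.z h' = s.z h' ∧ s.be h' ≤ s'.be h') ∧
      dist (s.z h) (s'.z h) ≤ θ * DH d s h y ∧
      (∀ h' x, |uu d s h' x - uu d s' h' x| ≤ θ * DH d s h y ∧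
        (18 < d y x → uu d s h' x = uu d s' h' x)) ∧
      DH d s' h y = (1 - θ) * DH d s h y ∧
      (∀ x, 0 < uu d s' h x → d y x ≤ 8) ∧
      ∀ x, d y x ≤ 1 → 1 ≤ uu d s h x ∧ 1 ≤ uu d s' h x ∧
        DH d s h y ^ 2 - 2 * DH d s h y * d y x ≤ (5 - UU d s x) ^ 2 ∧
        (5 - UU d s' x) ^ 2 - (5 - UU d s x) ^ 2 ≤
          -(θ * DH d s h y ^ 2) + 2 * (θ * DH d s h y) * d y x

/-- **HJ** (uses BAS). Fresh label: `z' h₀ = d y`, `be' h₀ = 0`; for `h' ≠ h₀`, `be' h' = be h' + 10` if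
`DH h' y ≤ 13`. -/
def HjStmt : Prop :=
  ∀ (X H : Type) [Fintype X] [Fintype H] (d : X → X → ℝ) (s : St X H) (h₀ : H) (y : X),
    IsD d → HOk d s → (∀ h, 3 ≤ DH d s h y) → 10 ≤ s.be h₀ → ∀ nu' : X → ℝ,
    ∃ s' : St X H, s'.nu = nu' ∧ HOk d s' ∧
      (∀ h', h' ≠ h₀ → s'.z h' = s.z h' ∧ s.be h' ≤ s'.be h') ∧
      (∀ h' x, 18 < d y x → uu d s h' x = uu d s' h' x) ∧
      ∀ x, d y x ≤ 1 → 2 ≤ 5 - UU d s x ∧ 5 - UU d s' x ≤ d y x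

/-- **EMI** (uses BAS, INT, AM, ETA, EM). Heavy scale: `g' = 0` on `B(y,1)`. Take `η` from ETA for
`μ = m g'²`. Pointwise, with `e = (g'² - g²)₊ ≤ 2 g' ε`, `min g² g'² = g'² - e`, `am ≥ -11`:
`22 (g'² φ' - g² φ) + min · l1 ≤ g'² am + e (11 + 22 φ')`; `e = 0` unless `1 < d y x ≤ 18`;
`g' φ' ≤ 2 + g'² II`, `∑ μ II ≤ 10 bm μ y 70 ≤ 10 A`. -/
def EmiStmt : Prop :=
  ∀ (X : Type) [Fintype X] (d : X → X → ℝ) (nu m g g' : X → ℝ) (y : X) (ε : ℝ), IsD d →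
    NuOk d nu → (∀ x, 0 ≤ m x) → (∀ x, 0 ≤ g x ∧ g x ≤ 1 ∧ 0 ≤ g' x ∧ g' x ≤ 1) → 0 ≤ ε →
    (∀ x, |g x - g' x| ≤ ε) → (∀ x, 18 < d y x → g x = g' x) → (∀ x, d y x ≤ 1 → g' x = 0) →
    ∃ nu' : X → ℝ, NuOk d nu' ∧
      ∑ x, m x * (22 * (g' x ^ 2 * phi d nu' x - g x ^ 2 * phi d nu x) +
        min (g x ^ 2) (g' x ^ 2) * l1 (piL d nu x) (piL d nu' x)) ≤
        550 * ε * (bm d m y 70 - bm d m y 1)

/-- **CN** (uses BAS, INT, AM, ETA, EM, MV, LB). Scale that is not heavy: `z, be` unchanged, `η` from ETA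
for `μ = (m + δ_y) g²`; `1 ≤ 201 L2`. Non-movers: `≤ -g(y)² am y ≤ 11`. Short mover (`δ = d y x ≤ 1`,
`χ = min g(x)² g(y)² ≤ g y`): `8δ + 60δ + χ am x + χ 4δ LI + 22 χ δ/8 LI + 22 · 4 δ g(y) LI/2`, and
`χ am x - g(y)² am y ≤ 11 (4δ + δ/2)`. LB for `g = g y` (points within `g u/16` of `y` have `gg ≥ g/2`; EM
(3)). Long mover: `2 + 75 + 11 + 11 g LI ≤ C (1 + Λ) ≤ C δ (1 + Λ)`. -/
def CnStmt : Prop :=
  ∀ (X H : Type) [Fintype X] [Fintype H] (d : X → X → ℝ) (s : St X H) (h₀ : H) (y : X)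
    (m q : X → ℝ), In d s h₀ m q → NN d m y 1 / 200 < NN d m y 70 - NN d m y 1 →
    ∃ s', Out d (10 ^ 7) s s' h₀ y m q

/-- **CS** (uses BAS, INT, HS, EMI). Heavy scale, `a = DH h y < 3`, `M = NN 70 ≤ 2 NN 1`,
`δ = min a (4D/M)`, `θ = δ/a` (`0` if `a = 0`). `gg` does not depend on `nu`: apply HS twice (or rebuild the
state). `A = bm 70 - bm 1 ≤ M L2`. Non-movers: heavy `ℓ¹ ≤ 8δ` and lag `≤ 3 · 20 δ` on `1 < d ≤ 18`, lag
`≤ 3 (-θ a² + 2δ d)` on the core, EMI with `ε = 2δ`. Mover: light part `≤ 0`; short: `ℓ¹ = 0`, lag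
`≤ 3 (-θ a² + 2 a d)`, and `≤ 0` if `θ = 1`; long: `2 + 3 (-θ a² + 9)`. If `θ < 1`,
`θ a² NN 1 ≥ 2 a D`. -/
def CsStmt : Prop :=
  ∀ (X H : Type) [Fintype X] [Fintype H] (d : X → X → ℝ) (s : St X H) (h₀ : H) (y : X)
    (m q : X → ℝ), In d s h₀ m q → NN d m y 70 - NN d m y 1 ≤ NN d m y 1 / 200 →
    (∃ h, DH d s h y < 3) → ∃ s', Out d (10 ^ 7) s s' h₀ y m q

/-- **CJ** (uses BAS, INT, HJ, EMI). Heavy scale, fresh label; EMI with `ε = 1`. With `w = NN 1`,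
`A ≤ w/200`: `4 (w + A) + 550 A + 3 (-3 w + 25 A + 3 PL) ≤ 9 PL`. (`uu h₀ = 0` before the step.) -/
def CjStmt : Prop :=
  ∀ (X H : Type) [Fintype X] [Fintype H] (d : X → X → ℝ) (s : St X H) (h₀ : H) (y : X)
    (m q : X → ℝ), In d s h₀ m q → NN d m y 70 - NN d m y 1 ≤ NN d m y 1 / 200 →
    (∀ h, 3 ≤ DH d s h y) → ∃ s', Out d (10 ^ 7) s s' h₀ y m q

/-- the rescaled distance -/
noncomputable def ds {X : Type} [MetricSpace X] (c : ℝ) (x y : X) : ℝ := dist x y / c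

/-- **SUM**. Sums over the scales `c l = c₀ 16^l`. `Λ 0 = 9 λ 0`, `Λ (l+1) = Λ l/4 + 9 (λ (l+1) - λ l)`,
`λ l = log N(70 c l)`; by induction `√(r/c l) (λ l - log N r) ≤ Λ l` for `0 < r ≤ 70 c l`. Harmonic bound
`∑ m x/N(dist y x) ≤ 1 + log k` (`ELem.sum_div_cum`), `∑_{l : r ≤ 70 c l} r/c l ≤ 140`,
`∑_{l : c l < r} c l ≤ 2 r`. -/
def SumStmt : Prop :=
  ∀ (X : Type) [MetricSpace X] [Fintype X] (k : ℕ) (c₀ : ℝ) (J : ℕ) (m q : X → ℝ) (y : X), 2 ≤ k →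
    0 < c₀ → (∀ x, 0 ≤ m x) → 1 + ∑ x, m x ≤ k → (∀ x, 0 ≤ q x) →
    (∃ Λ : ℕ → ℝ, (∀ l, LamOk (ds (c₀ * 16 ^ l)) m y (Λ l)) ∧
      ∑ l ∈ range J, Λ l ≤ 12 * Real.log (k + 1)) ∧
    ∑ l ∈ range J, L2 (ds (c₀ * 16 ^ l)) m y ≤ 280 * Real.log (k + 1) ∧
    ∑ l ∈ range J, c₀ * 16 ^ l * PL (ds (c₀ * 16 ^ l)) q y ≤ 2 * ∑ x, q x * dist y x ∧
    1 + ∑ x, m x / NN dist m y (dist y x) ≤ 3 * Real.log (k + 1)

/-- the fractional form of `EStmt` (`τ = 16`) -/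
def EfStmt : Prop :=
  ∃ C : ℝ, 0 ≤ C ∧ ∀ k : ℕ, 2 ≤ k → ∀ (X : Type) [MetricSpace X] [Fintype X]
    (lam : ℝ) (J : ℕ), 0 < lam → ∃ B : ℝ,
    ∀ (s : Fin k → X) (n : ℕ) (Ω : Type) [Fintype Ω] (P : Bay Ω) (σ : Ω → ℕ → X)
      (j : Ω → ℕ → Fin k), Pref P σ →
      ∃ (Lab : Type) (_ : Fintype Lab) (π : ℕ → Ω → ℕ → X → Lab → ℝ)
        (anc : ℕ → Ω → ℕ → Lab → X → ℝ) (g : ℕ → Ω → X → ℝ),
        (∀ t, P.Ad t (π t)) ∧ (∀ t, P.Ad t (anc t)) ∧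
        (∀ t ω l x, (∀ a, 0 ≤ π t ω l x a) ∧ ∑ a, π t ω l x a = 1) ∧
        (∀ t ω l x a, l < J → π t ω l x a ≠ 0 → dist (anc t ω l a) (kur x) ≤ 2 * (lam * 16 ^ l)) ∧
        (∀ t ω x, 0 ≤ g t ω x) ∧
        (∀ t ω l x x' a, l < J → π t ω l x' a ≠ 0 → π (t + 1) ω l x a ≠ 0 →
          dist (anc t ω l a) (anc (t + 1) ω l a) ≤ g t ω x) ∧
        P.Ex (fun ω => ∑ t ∈ range n, ∑ i : Fin k,
          ((∑ l ∈ range J, lam * 16 ^ l * l1 (π t ω l (optCfg s (σ ω) (j ω) t i))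
            (π (t + 1) ω l (optCfg s (σ ω) (j ω) (t + 1) i))) +
            g t ω (optCfg s (σ ω) (j ω) (t + 1) i))) ≤
          C * Real.log (k + 1) * P.Ex (fun ω => optCost s (σ ω) (j ω) n) + B

theorem anchorF : True := by
  have := @al.eq_1; have := @l1.eq_1; have := @bm.eq_1; have := @DH.eq_1; have := @uu.eq_1
  have := @UU.eq_1; have := @gg.eq_1; have := @phi.eq_1; have := @LI.eq_1; have := @piL.eq_1
  have := @pp.eq_1; have := @ff.eq_1; have := @nup.eq_1; have := @II.eq_1; have := @am.eq_1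
  have := @NN.eq_1; have := @DD.eq_1; have := @PL.eq_1; have := @L2.eq_1; have := @LamOk.eq_1
  have := @cost.eq_1; have := @ds.eq_1
  trivial

end Crest.Agent.KS.F
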